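import Mathlib

/-!
# P038: monotone maximum flows, by cuts only (helper350)
-/

namespace Vale.Agent.P038.H350

open Finset

variable {V : Type*} [Fintype V] [DecidableEq V]

/-- slack of a potential at `y` -/
def sl (N : V → Finset V) (p : V → ℕ) (y : V) : ℕ :=
  univ.sup (fun x => if y ∈ N x then p y - 1 - p x else 0)

/-- the energy of a potential -/
def Phi (N : V → Finset V) (v : V → ℝ) (p : V → ℕ) : ℝ := ∑ y, v y * (sl N p y : ℝ)

/-- the boundary -/
def bd (N : V → Finset V) (U : Finset V) : Finset V := U.biUnion N \ U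

/-- weight of the boundary -/
def cut (N : V → Finset V) (v : V → ℝ) (U : Finset V) : ℝ := ∑ y ∈ bd N U, v y

theorem le_sl (N : V → Finset V) (p : V → ℕ) {x y : V} (h : y ∈ N x) :
    p y - 1 - p x ≤ sl N p y := by
  have := Finset.le_sup (f := fun x => if y ∈ N x then p y - 1 - p x else 0) (mem_univ x)
  rw [if_pos h] at this
  exact this

theorem exists_sl (N : V → Finset V) (p : V → ℕ) (y : V) :
    ∃ x, sl N p y = if y ∈ N x then p y - 1 - p x else 0 := by
  obtain ⟨x, -, hx⟩ := Finset.exists_mem_eq_sup univ ⟨y, mem_univ y⟩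
    (fun x => if y ∈ N x then p y - 1 - p x else 0)
  exact ⟨x, hx⟩

theorem sl_le (N : V → Finset V) (p : V → ℕ) (y : V) (k : ℕ)
    (h : ∀ x, y ∈ N x → p y - 1 - p x ≤ k) : sl N p y ≤ k := by
  apply Finset.sup_le
  intro x _
  split_ifs with hx
  · exact h x hx
  · exact Nat.zero_le _

theorem sl_submod (N : V → Finset V) (p q : V → ℕ) (y : V) :
    sl N (fun z => max (p z) (q z)) y + sl N (fun z => min (p z) (q z)) y
      ≤ sl N p y + sl N q y := by
  obtain ⟨x1, h1⟩ := exists_sl N (fun z => max (p z) (q z)) y
  obtain ⟨x2, h2⟩ := exists_sl N (fun z => min (p z) (q z)) y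
  rw [h1, h2]
  split_ifs with a1 a2 a2
  · have e1 := le_sl N p a1
    have e2 := le_sl N q a1
    have e3 := le_sl N p a2
    have e4 := le_sl N q a2
    omega
  · have e1 := le_sl N p a1
    have e2 := le_sl N q a1
    omega
  · have e3 := le_sl N p a2
    have e4 := le_sl N q a2
    omega
  · omega

theorem Phi_submod (N : V → Finset V) (v : V → ℝ) (hv : ∀ x, 0 ≤ v x) (p q : V → ℕ) :
    Phi N v (fun z => max (p z) (q z)) + Phi N v (fun z => min (p z) (q z))
      ≤ Phi N v p + Phi N v q := by
  unfold Phi
  rw [← Finset.sum_add_distrib, ← Finset.sum_add_distrib]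
  apply Finset.sum_le_sum
  intro y _
  rw [← mul_add, ← mul_add]
  apply mul_le_mul_of_nonneg_left _ (hv y)
  exact_mod_cast sl_submod N p q y

/-- feasible potentials -/
def feas (K : ℕ) (R : Finset V) (r : V → ℕ) : Set (V → ℕ) :=
  {p | (∀ x ∈ R, p x = 0) ∧ (∀ x, r x ≤ p x) ∧ ∀ x, p x ≤ K}

theorem feas_finite (K : ℕ) (R : Finset V) (r : V → ℕ) : (feas K R r).Finite := by
  apply Set.Finite.subset (Fintype.piFinset (fun _ : V => Finset.range (K+1))).finite_toSet
  intro p hp
  rw [Finset.mem_coe, Fintype.mem_piFinset]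
  intro x
  rw [Finset.mem_range]
  have := hp.2.2 x
  omega

/-- optimal value -/
noncomputable def val (N : V → Finset V) (v : V → ℝ) (K : ℕ) (R : Finset V) (r : V → ℕ) : ℝ :=
  sInf (Phi N v '' feas K R r)

theorem val_le (N : V → Finset V) (v : V → ℝ) {K : ℕ} {R : Finset V} {r : V → ℕ} {p : V → ℕ}
    (hp : p ∈ feas K R r) : val N v K R r ≤ Phi N v p :=
  csInf_le ((feas_finite K R r).image _).bddBelow ⟨p, hp, rfl⟩

theorem exists_val (N : V → Finset V) (v : V → ℝ) {K : ℕ} {R : Finset V} {r : V → ℕ}
    (h : (feas K R r).Nonempty) : ∃ p ∈ feas K R r, Phi N v p = val N v K R r := by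
  have := Set.Nonempty.csInf_mem (h.image (Phi N v)) ((feas_finite K R r).image _)
  obtain ⟨p, hp, he⟩ := this
  exact ⟨p, hp, he⟩

/-- lower bound function -/
def rho (M : ℕ) (H S : Finset V) (z : V) : ℕ :=
  if z ∈ H then 0 else if z ∈ S then M + 1 else M

theorem feas_nonempty (M : ℕ) {R H : Finset V} (hR : R ⊆ H) (S : Finset V) :
    (feas (M+1) R (rho M H S)).Nonempty := by
  refine ⟨fun z => if z ∈ H then 0 else M + 1, ?_, ?_, ?_⟩
  · intro x hx
    simp [hR hx]
  · intro x
    unfold rho
    by_cases h1 : x ∈ H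
    · simp [h1]
    · by_cases h2 : x ∈ S
      · simp [h1, h2]
      · simp [h1, h2]
  · intro x
    dsimp only
    split_ifs <;> omega

/-- marginal inequality -/
theorem marg (N : V → Finset V) (v : V → ℝ) (hv : ∀ x, 0 ≤ v x) (M : ℕ)
    {R R' H H' S S' : Finset V} (hR : R ⊆ R') (hH : H ⊆ H') (hS : S' ⊆ S)
    (hRH : R ⊆ H) (hRH' : R' ⊆ H') {x : V} (hx : x ∉ H') :
    val N v (M+1) R (rho M H (insert x S)) + val N v (M+1) R' (rho M H' S')
      ≤ val N v (M+1) R (rho M H S) + val N v (M+1) R' (rho M H' (insert x S')) := by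
  obtain ⟨p, hp, hpe⟩ := exists_val N v (feas_nonempty M hRH S)
  obtain ⟨q, hq, hqe⟩ := exists_val N v (feas_nonempty M hRH' (insert x S'))
  rw [← hpe, ← hqe]
  refine le_trans (add_le_add (val_le N v (p := fun z => max (p z) (q z)) ?_)
    (val_le N v (p := fun z => min (p z) (q z)) ?_)) (Phi_submod N v hv p q)
  · refine ⟨?_, ?_, ?_⟩
    · intro z hz
      have a := hp.1 z hz
      have b := hq.1 z (hR hz)
      simp [a, b]
    · intro z
      have a := hp.2.1 z
      have b := hq.2.1 z
      dsimp only
      by_cases h1 : z ∈ H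
      · simp [rho, h1]
      · by_cases h2 : z = x
        · subst h2
          simp only [rho, hx, mem_insert, true_or, if_true, if_false, h1] at a b ⊢
          omega
        · simp only [rho, mem_insert, h2, false_or, h1, if_false] at a ⊢
          omega
    · intro z
      have a := hp.2.2 z
      have b := hq.2.2 z
      dsimp only
      omega
  · refine ⟨?_, ?_, ?_⟩
    · intro z hz
      have b := hq.1 z hz
      simp [b]
    · intro z
      have a := hp.2.1 z
      have b := hq.2.1 z
      dsimp only
      by_cases h1 : z ∈ H'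
      · simp [rho, h1]
      · have h1' : z ∉ H := fun h => h1 (hH h)
        by_cases h3 : z ∈ S'
        · have h4 := hS h3
          simp only [rho, h1, h1', h3, h4, mem_insert, or_true, if_true, if_false] at a b ⊢
          omega
        · simp only [rho, h1, h1', h3, if_false, mem_insert, or_false] at a b ⊢
          split_ifs at a b <;> omega
    · intro z
      have a := hp.2.2 z
      dsimp only
      omega

theorem val_mono (N : V → Finset V) (v : V → ℝ) (M : ℕ) {R H S : Finset V} (hRH : R ⊆ H) (x : V) :
    val N v (M+1) R (rho M H S) ≤ val N v (M+1) R (rho M H (insert x S)) := by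
  obtain ⟨p, hp, hpe⟩ := exists_val N v (feas_nonempty M hRH (insert x S))
  rw [← hpe]
  apply val_le
  refine ⟨hp.1, ?_, hp.2.2⟩
  intro z
  have a := hp.2.1 z
  unfold rho at a ⊢
  by_cases h1 : z ∈ H
  · simp [h1]
  · by_cases h2 : z ∈ S
    · simp only [h1, h2, mem_insert, or_true, if_true, if_false] at a ⊢
      exact a
    · simp only [h1, h2, if_false, mem_insert, or_false] at a ⊢
      split_ifs at a <;> omega

/-- raising one vertex outside `H` -/
theorem raise (N : V → Finset V) (hN : ∀ x, x ∉ N x) (v : V → ℝ) (hv : ∀ x, 0 ≤ v x) (M : ℕ)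
    {R H S : Finset V}
    (hRH : R ⊆ H) {x : V} (hx : x ∉ H) :
    val N v (M+1) R (rho M H (insert x S)) ≤ val N v (M+1) R (rho M H S) +
      (if x ∈ H.biUnion N then v x else 0) := by
  obtain ⟨p, hp, hpe⟩ := exists_val N v (feas_nonempty M hRH S)
  rw [← hpe]
  have hf : (fun z => if z = x then M + 1 else p z) ∈ feas (M+1) R (rho M H (insert x S)) := by
    refine ⟨?_, ?_, ?_⟩
    · intro z hz
      have : z ≠ x := by
        rintro rfl
        exact hx (hRH hz)
      simp [this, hp.1 z hz]
    · intro z
      dsimp only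
      have a := hp.2.1 z
      by_cases h1 : z = x
      · subst h1
        simp [rho, hx]
      · simp only [rho, mem_insert, h1, false_or, if_false] at a ⊢
        exact a
    · intro z
      dsimp only
      have := hp.2.2 z
      split_ifs <;> omega
  refine le_trans (val_le N v hf) ?_
  unfold Phi
  have key : ∀ y, sl N (fun z => if z = x then M + 1 else p z) y ≤ sl N p y +
      (if y = x ∧ x ∈ H.biUnion N then 1 else 0) := by
    intro y
    apply sl_le
    intro z hz
    have e := le_sl N p hz
    by_cases hy : y = x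
    · subst hy
      have hzy : z ≠ y := by
        rintro rfl
        exact hN _ hz
      simp only [if_true, hzy, if_false, true_and]
      have a := hp.2.1 y
      simp only [rho, hx, if_false] at a
      by_cases hm : y ∈ H.biUnion N
      · simp only [hm, if_true]
        split_ifs at a <;> omega
      · have hzH : z ∉ H := fun h => hm (mem_biUnion.2 ⟨z, h, hz⟩)
        have b := hp.2.1 z
        simp only [rho, hzH, if_false] at b
        simp only [hm, if_false]
        split_ifs at b <;> omega
    · simp only [hy, if_false, false_and]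
      by_cases hzx : z = x
      · subst hzx
        have := hp.2.2 z
        simp only [if_true]
        omega
      · simp only [hzx, if_false]
        omega
  calc ∑ y, v y * (sl N (fun z => if z = x then M + 1 else p z) y : ℝ)
      ≤ ∑ y, (v y * (sl N p y : ℝ) + (if y = x then (if x ∈ H.biUnion N then v x else 0) else 0)) := by
        apply Finset.sum_le_sum
        intro y _
        have k := key y
        have k' : (sl N (fun z => if z = x then M + 1 else p z) y : ℝ) ≤ (sl N p y : ℝ) +
            (if y = x ∧ x ∈ H.biUnion N then 1 else 0) := by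
          have := (Nat.cast_le (α := ℝ)).2 k
          push_cast at this
          exact this
        have k2 := mul_le_mul_of_nonneg_left k' (hv y)
        rw [mul_add] at k2
        refine le_trans k2 ?_
        by_cases hy : y = x
        · subst hy
          by_cases hm : y ∈ H.biUnion N
          · simp [hm]
          · simp [hm]
        · simp [hy]
    _ = ∑ y, v y * (sl N p y : ℝ) + (if x ∈ H.biUnion N then v x else 0) := by
        rw [Finset.sum_add_distrib]
        simp

/-- inserting a cut -/
theorem insertCut (N : V → Finset V) (v : V → ℝ) (hv : ∀ x, 0 ≤ v x) (M : ℕ)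
    {R H U : Finset V} (hRU : R ⊆ U) (hUH : U ⊆ H) (S : Finset V) :
    val N v (M+1) R (rho M H S) ≤ val N v (M+1) R (rho M H ∅) +
      ∑ y ∈ (bd N U).filter (fun y => y ∈ H ∨ y ∈ S), v y := by
  obtain ⟨p, hp, hpe⟩ := exists_val N v (feas_nonempty M (hRU.trans hUH) ∅)
  rw [← hpe]
  set q : V → ℕ := fun z => if z ∈ U then p z else if z ∈ H ∨ z ∈ S then min (p z + 1) (M+1)
    else p z with hqd
  have hf : q ∈ feas (M+1) R (rho M H S) := by
    refine ⟨?_, ?_, ?_⟩
    · intro z hz
      simp [hqd, hRU hz, hp.1 z hz]
    · intro z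
      have a := hp.2.1 z
      simp only [hqd]
      by_cases h1 : z ∈ H
      · simp [rho, h1]
      · have h2 : z ∉ U := fun h => h1 (hUH h)
        simp only [rho, h1, if_false, notMem_empty] at a
        by_cases h3 : z ∈ S
        · simp only [rho, h1, h2, h3, if_false, if_true, or_true]
          omega
        · simp only [rho, h1, h2, h3, if_false, or_false]
          exact a
    · intro z
      have := hp.2.2 z
      simp only [hqd]
      split_ifs <;> omega
  refine le_trans (val_le N v hf) ?_
  have key : ∀ y, sl N q y ≤ sl N p y +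
      (if y ∈ (bd N U).filter (fun y => y ∈ H ∨ y ∈ S) then 1 else 0) := by
    intro y
    apply sl_le
    intro x hx
    have e := le_sl N p hx
    have py := hp.2.2 y
    have px := hp.2.2 x
    have qy : q y ≤ p y + 1 := by
      simp only [hqd]
      split_ifs <;> omega
    have qy2 : q y ≤ M + 1 := hf.2.2 y
    by_cases hxU : x ∈ U
    · have qx : q x = p x := by simp [hqd, hxU]
      by_cases hyU : y ∈ U
      · have : q y = p y := by simp [hqd, hyU]
        rw [this, qx]
        omega
      · by_cases hy2 : y ∈ H ∨ y ∈ S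
        · have : y ∈ (bd N U).filter (fun y => y ∈ H ∨ y ∈ S) := by
            rw [mem_filter, bd, mem_sdiff, mem_biUnion]
            exact ⟨⟨⟨x, hxU, hx⟩, hyU⟩, hy2⟩
          rw [if_pos this]
          omega
        · have : q y = p y := by
            simp only [hqd, hyU, if_false, hy2]
          rw [this, qx]
          omega
    · by_cases hx2 : x ∈ H ∨ x ∈ S
      · have qx : q x = min (p x + 1) (M + 1) := by
          simp only [hqd, hxU, if_false, hx2, if_true]
        omega
      · have qx : q x = p x := by
          simp only [hqd, hxU, if_false, hx2]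
        have a := hp.2.1 x
        have hxH : x ∉ H := fun h => hx2 (Or.inl h)
        simp only [rho, hxH, if_false, notMem_empty] at a
        omega
  unfold Phi
  calc ∑ y, v y * (sl N q y : ℝ)
      ≤ ∑ y, (v y * (sl N p y : ℝ) +
        (if y ∈ (bd N U).filter (fun y => y ∈ H ∨ y ∈ S) then v y else 0)) := by
        apply Finset.sum_le_sum
        intro y _
        have k := key y
        have k' : (sl N q y : ℝ) ≤ (sl N p y : ℝ) +
            (if y ∈ (bd N U).filter (fun y => y ∈ H ∨ y ∈ S) then 1 else 0) := by
          have := (Nat.cast_le (α := ℝ)).2 k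
          push_cast at this
          exact this
        have k2 := mul_le_mul_of_nonneg_left k' (hv y)
        rw [mul_add] at k2
        refine le_trans k2 ?_
        split_ifs <;> simp
    _ = _ := by
        rw [Finset.sum_add_distrib, Finset.sum_ite_mem, Finset.univ_inter]

/-- a free level gives a cut -/
theorem gap (N : V → Finset V) (v : V → ℝ) (hv : ∀ x, 0 ≤ v x) {M : ℕ}
    (hM : Fintype.card V < M) {R H : Finset V} (hRH : R ⊆ H) :
    ∃ U : Finset V, R ⊆ U ∧ U ⊆ H ∧
      val N v (M+1) R (rho M H ∅) + cut N v U ≤ val N v (M+1) R (rho M H (univ \ H)) := by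
  obtain ⟨p, hp, hpe⟩ := exists_val N v (feas_nonempty M hRH (univ \ H))
  have hcard : (univ.image p).card < (Finset.Icc 1 M).card := by
    rw [Nat.card_Icc]
    have : (univ.image p).card ≤ Fintype.card V := Finset.card_image_le
    omega
  obtain ⟨i, hi, hip⟩ := Finset.exists_mem_notMem_of_card_lt_card hcard
  rw [Finset.mem_Icc] at hi
  have hne : ∀ z, p z ≠ i := by
    intro z hz
    exact hip (mem_image.2 ⟨z, mem_univ z, hz⟩)
  have hoff : ∀ z, z ∉ H → p z = M + 1 := by
    intro z hz
    have a := hp.2.1 z
    have b := hp.2.2 z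
    simp only [rho, hz, if_false, mem_sdiff, mem_univ, true_and, not_false_iff, if_true] at a
    omega
  set U : Finset V := univ.filter (fun z => p z < i) with hU
  have memU : ∀ z, z ∈ U ↔ p z < i := by
    intro z
    simp [hU]
  refine ⟨U, ?_, ?_, ?_⟩
  · intro z hz
    rw [memU, hp.1 z hz]
    omega
  · intro z hz
    by_contra hzH
    rw [memU, hoff z hzH] at hz
    omega
  · rw [← hpe]
    set q : V → ℕ := fun z => if p z < i then p z else p z - 1 with hqd
    have hf : q ∈ feas (M+1) R (rho M H ∅) := by
      refine ⟨?_, ?_, ?_⟩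
      · intro z hz
        have := hp.1 z hz
        simp only [hqd, this]
        split_ifs <;> rfl
      · intro z
        by_cases h1 : z ∈ H
        · simp [rho, h1]
        · have := hoff z h1
          simp only [rho, h1, if_false, notMem_empty, hqd, this]
          split_ifs <;> omega
      · intro z
        have := hp.2.2 z
        simp only [hqd]
        split_ifs <;> omega
    have key : ∀ y, sl N q y + (if y ∈ bd N U then 1 else 0) ≤ sl N p y := by
      intro y
      have hy := hne y
      obtain ⟨x, hx⟩ := exists_sl N q y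
      rw [hx]
      have hxn := hne x
      by_cases hyU : p y < i
      · have hb : y ∉ bd N U := by
          rw [bd, mem_sdiff]
          intro h
          exact h.2 ((memU y).2 hyU)
        have qy : q y = p y := by simp [hqd, hyU]
        simp only [hb, if_false, add_zero]
        split_ifs with hyx
        · have e := le_sl N p hyx
          by_cases hxU : p x < i
          · have qx : q x = p x := by simp [hqd, hxU]
            omega
          · have qx : q x = p x - 1 := by simp [hqd, hxU]
            omega
        · omega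
      · have qy : q y = p y - 1 := by simp [hqd, hyU]
        by_cases hb : y ∈ bd N U
        · rw [if_pos hb]
          have hb' := hb
          rw [bd, mem_sdiff, mem_biUnion] at hb'
          obtain ⟨⟨x0, hx0, hyx0⟩, -⟩ := hb'
          rw [memU] at hx0
          have e0 := le_sl N p hyx0
          split_ifs with hyx
          · have e := le_sl N p hyx
            by_cases hxU : p x < i
            · have qx : q x = p x := by simp [hqd, hxU]
              omega
            · have qx : q x = p x - 1 := by simp [hqd, hxU]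
              omega
          · omega
        · rw [if_neg hb]
          split_ifs with hyx
          · have e := le_sl N p hyx
            have hxU : ¬ p x < i := by
              intro hxU
              apply hb
              rw [bd, mem_sdiff, mem_biUnion]
              exact ⟨⟨x, (memU x).2 hxU, hyx⟩, fun h => hyU ((memU y).1 h)⟩
            have qx : q x = p x - 1 := by simp [hqd, hxU]
            omega
          · omega
    have h1 := val_le N v hf
    have h2 : Phi N v q + cut N v U ≤ Phi N v p := by
      unfold Phi cut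
      rw [← Finset.univ_inter (bd N U), ← Finset.sum_ite_mem, ← Finset.sum_add_distrib]
      apply Finset.sum_le_sum
      intro y _
      have k := key y
      have k' : (sl N q y : ℝ) + (if y ∈ bd N U then 1 else 0) ≤ (sl N p y : ℝ) := by
        have := (Nat.cast_le (α := ℝ)).2 k
        push_cast at this
        exact this
      have k2 := mul_le_mul_of_nonneg_left k' (hv y)
      rw [mul_add] at k2
      refine le_trans ?_ k2
      split_ifs <;> simp
    linarith

/-- initial segments of the complement of `H` -/
def Sk {n : ℕ} (e : V ≃ Fin n) (H : Finset V) (k : ℕ) : Finset V :=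
  univ.filter (fun z => z ∉ H ∧ (e z : ℕ) < k)

theorem Sk_succ {n : ℕ} (e : V ≃ Fin n) {H : Finset V} {x : V} (hx : x ∉ H) :
    Sk e H ((e x : ℕ) + 1) = insert x (Sk e H (e x)) := by
  ext z
  simp only [Sk, mem_filter, mem_univ, true_and, mem_insert]
  constructor
  · rintro ⟨h1, h2⟩
    by_cases hz : z = x
    · exact Or.inl hz
    · right
      refine ⟨h1, ?_⟩
      have : (e z : ℕ) ≠ (e x : ℕ) := by
        intro h
        exact hz (e.injective (Fin.ext h))
      omega
  · rintro (rfl | ⟨h1, h2⟩)
    · exact ⟨hx, by omega⟩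
    · exact ⟨h1, by omega⟩

theorem Sk_succ' {n : ℕ} (e : V ≃ Fin n) {H : Finset V} {x : V} (hx : x ∈ H) :
    Sk e H ((e x : ℕ) + 1) = Sk e H (e x) := by
  ext z
  simp only [Sk, mem_filter, mem_univ, true_and]
  constructor
  · rintro ⟨h1, h2⟩
    refine ⟨h1, ?_⟩
    have : (e z : ℕ) ≠ (e x : ℕ) := by
      intro h
      have := e.injective (Fin.ext h)
      exact h1 (this ▸ hx)
    omega
  · rintro ⟨h1, h2⟩
    exact ⟨h1, by omega⟩

theorem Sk_zero {n : ℕ} (e : V ≃ Fin n) (H : Finset V) : Sk e H 0 = ∅ := by
  ext z
  simp [Sk]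

theorem Sk_top {n : ℕ} (e : V ≃ Fin n) (H : Finset V) : Sk e H n = univ \ H := by
  ext z
  simp [Sk]

/-- the exit vector -/
noncomputable def fl {n : ℕ} (N : V → Finset V) (v : V → ℝ) (M : ℕ) (e : V ≃ Fin n)
    (R H : Finset V) (x : V) : ℝ :=
  val N v (M+1) R (rho M H (Sk e H ((e x : ℕ) + 1))) - val N v (M+1) R (rho M H (Sk e H (e x)))

theorem fl_mem {n : ℕ} (N : V → Finset V) (v : V → ℝ) (M : ℕ) (e : V ≃ Fin n)
    {R H : Finset V} {x : V} (hx : x ∈ H) : fl N v M e R H x = 0 := by
  unfold fl
  rw [Sk_succ' e hx, sub_self]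

theorem fl_nonneg {n : ℕ} (N : V → Finset V) (v : V → ℝ) (M : ℕ) (e : V ≃ Fin n)
    {R H : Finset V} (hRH : R ⊆ H) (x : V) : 0 ≤ fl N v M e R H x := by
  by_cases hx : x ∈ H
  · rw [fl_mem N v M e hx]
  · unfold fl
    rw [Sk_succ e hx, sub_nonneg]
    exact val_mono N v M hRH x

theorem fl_le {n : ℕ} (N : V → Finset V) (hN : ∀ x, x ∉ N x) (v : V → ℝ) (hv : ∀ x, 0 ≤ v x)
    (M : ℕ) (e : V ≃ Fin n)
    {R H : Finset V} (hRH : R ⊆ H) (x : V) :
    fl N v M e R H x ≤ if x ∈ H.biUnion N then v x else 0 := by
  by_cases hx : x ∈ H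
  · rw [fl_mem N v M e hx]
    split_ifs
    · exact hv x
    · exact le_refl _
  · unfold fl
    rw [Sk_succ e hx]
    have := raise N hN v hv M hRH hx (S := Sk e H (e x))
    linarith

theorem fl_sum {n : ℕ} (N : V → Finset V) (v : V → ℝ) (M : ℕ) (e : V ≃ Fin n)
    (R H : Finset V) : ∑ x, fl N v M e R H x =
      val N v (M+1) R (rho M H (univ \ H)) - val N v (M+1) R (rho M H ∅) := by
  have h1 : ∑ x, fl N v M e R H x = ∑ i : Fin n,
      (val N v (M+1) R (rho M H (Sk e H ((i : ℕ) + 1))) -
        val N v (M+1) R (rho M H (Sk e H (i : ℕ)))) := by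
    apply Fintype.sum_equiv e
    intro x
    rfl
  rw [h1, Fin.sum_univ_eq_sum_range (fun k => val N v (M+1) R (rho M H (Sk e H (k + 1))) -
        val N v (M+1) R (rho M H (Sk e H k))) n,
    Finset.sum_range_sub (fun k => val N v (M+1) R (rho M H (Sk e H k))), Sk_zero, Sk_top]

/-- **Monotone maximum flows.** -/
theorem monotone_flows (N : V → Finset V) (hN : ∀ x, x ∉ N x) (v : V → ℝ) (hv : ∀ x, 0 ≤ v x) :
    ∃ f : Finset V → Finset V → V → ℝ,
      (∀ R H, R ⊆ H → ∀ x, 0 ≤ f R H x) ∧
      (∀ R H, R ⊆ H → ∀ x, f R H x ≤ v x) ∧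
      (∀ R H, R ⊆ H → ∀ x, x ∈ H → f R H x = 0) ∧
      (∀ R H, R ⊆ H → ∀ x, x ∉ H.biUnion N → f R H x = 0) ∧
      (∀ R H U, R ⊆ U → U ⊆ H → ∑ x, f R H x ≤ cut N v U) ∧
      (∀ R H, R ⊆ H → ∃ U, R ⊆ U ∧ U ⊆ H ∧ cut N v U ≤ ∑ x, f R H x ∧
        ∀ x ∈ U.biUnion N, x ∉ H → f R H x = v x) ∧
      (∀ R H R' H', R ⊆ R' → H ⊆ H' → R ⊆ H → R' ⊆ H' → ∀ x, x ∉ H' →
        f R H x ≤ f R' H' x) := by
  classical
  set M : ℕ := Fintype.card V + 1 with hM
  let e : V ≃ Fin (Fintype.card V) := Fintype.equivFin V
  have hle : ∀ R H, R ⊆ H → ∀ x, fl N v M e R H x ≤ v x := by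
    intro R H hRH x
    refine le_trans (fl_le N hN v hv M e hRH x) ?_
    split_ifs
    · exact le_refl _
    · exact hv x
  refine ⟨fl N v M e, fun R H hRH x => fl_nonneg N v M e hRH x, hle,
    fun R H hRH x hx => fl_mem N v M e hx, ?_, ?_, ?_, ?_⟩
  · intro R H hRH x hx
    have h1 := fl_le N hN v hv M e hRH x
    rw [if_neg hx] at h1
    exact le_antisymm h1 (fl_nonneg N v M e hRH x)
  · intro R H U hRU hUH
    rw [fl_sum]
    have h1 := insertCut N v hv M hRU hUH (univ \ H)
    have h2 : (bd N U).filter (fun y => y ∈ H ∨ y ∈ univ \ H) = bd N U := by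
      apply Finset.filter_true_of_mem
      intro y _
      by_cases hy : y ∈ H
      · exact Or.inl hy
      · right
        simp [hy]
    rw [h2] at h1
    unfold cut
    linarith
  · intro R H hRH
    obtain ⟨U, hRU, hUH, hU⟩ := gap N v hv (M := M) (by omega) hRH
    refine ⟨U, hRU, hUH, ?_, ?_⟩
    · rw [fl_sum]
      linarith
    · intro x hxU hxH
      apply le_antisymm (hle R H hRH x)
      have hxbd : x ∈ bd N U := by
        rw [bd, mem_sdiff]
        exact ⟨hxU, fun h => hxH (hUH h)⟩
      have h1 := insertCut N v hv M hRU hUH ((univ \ H).erase x)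
      have h2 : (bd N U).filter (fun y => y ∈ H ∨ y ∈ (univ \ H).erase x) = (bd N U).erase x := by
        ext y
        simp only [mem_filter, mem_erase, mem_sdiff, mem_univ, true_and]
        constructor
        · rintro ⟨h3, h4 | h4⟩
          · exact ⟨fun h => hxH (h ▸ h4), h3⟩
          · exact ⟨h4.1, h3⟩
        · rintro ⟨h3, h4⟩
          refine ⟨h4, ?_⟩
          by_cases h5 : y ∈ H
          · exact Or.inl h5
          · exact Or.inr ⟨h3, h5⟩
      rw [h2] at h1
      have h3 : ∑ y ∈ (bd N U).erase x, v y + v x = ∑ y ∈ bd N U, v y :=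
        Finset.sum_erase_add _ _ hxbd
      have hS : Sk e H (e x) ⊆ (univ \ H).erase x := by
        intro z hz
        simp only [Sk, mem_filter, mem_univ, true_and] at hz
        rw [mem_erase, mem_sdiff]
        refine ⟨?_, mem_univ z, hz.1⟩
        rintro rfl
        exact lt_irrefl _ hz.2
      have h4 := marg N v hv M (subset_refl R) (subset_refl H) hS hRH hRH hxH
      have h5 : insert x ((univ \ H).erase x) = univ \ H :=
        Finset.insert_erase (by simp [hxH])
      rw [h5] at h4
      unfold fl
      rw [Sk_succ e hxH]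
      unfold cut at hU
      linarith
  · intro R H R' H' hR hH hRH hRH' x hx
    have hxH : x ∉ H := fun h => hx (hH h)
    unfold fl
    rw [Sk_succ e hx, Sk_succ e hxH]
    have hS : Sk e H' (e x) ⊆ Sk e H (e x) := by
      intro z hz
      simp only [Sk, mem_filter, mem_univ, true_and] at hz ⊢
      exact ⟨fun h => hz.1 (hH h), hz.2⟩
    have := marg N v hv M hR hH hS hRH hRH' hx
    linarith

end Vale.Agent.P038.H350
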