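import Mathlib
import Vale.Agent.P038.H350.Flow

/-!
# P038: inner cut ≤ outer cut (helper350)
-/

namespace Vale.Agent.P038.H350

open Finset MeasureTheory

variable {V : Type*} [Fintype V] [DecidableEq V]

/-- averaging over a threshold -/
theorem threshold {ι : Type*} (s : Finset ι) (k B C : ι → ℝ)
    (hB : ∀ i ∈ s, 0 ≤ B i) (hBC : ∀ i ∈ s, B i ≤ C i) (hC : ∀ i ∈ s, C i ≤ 1) :
    ∃ t : ℝ, 0 < t ∧ t ≤ 1 ∧
      ∑ i ∈ s, k i * (if B i < t ∧ t ≤ C i then 1 else 0) ≤ ∑ i ∈ s, k i * (C i - B i) := by
  set F : ℝ → ℝ := fun t => ∑ i ∈ s, k i * (Set.Ioc (B i) (C i)).indicator (fun _ => (1:ℝ)) t with hF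
  have hvol : (volume (Set.Ioc (0:ℝ) 1)) = 1 := by simp
  have hint1 : ∀ i ∈ s, IntegrableOn
      (fun t => k i * (Set.Ioc (B i) (C i)).indicator (fun _ => (1:ℝ)) t) (Set.Ioc (0:ℝ) 1) := by
    intro i _
    apply Integrable.const_mul
    apply Integrable.indicator _ measurableSet_Ioc
    apply integrable_const
  have hint : IntegrableOn F (Set.Ioc (0:ℝ) 1) := by
    apply integrable_finsetSum
    exact hint1
  obtain ⟨t, ht, hle⟩ := exists_le_setAverage (μ := volume) (s := Set.Ioc (0:ℝ) 1) (f := F)
    (by rw [hvol]; exact one_ne_zero) (by rw [hvol]; exact ENNReal.one_ne_top) hint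
  have hav : ⨍ a in Set.Ioc (0:ℝ) 1, F a = ∑ i ∈ s, k i * (C i - B i) := by
    rw [setAverage_eq, measureReal_def, hvol]
    simp only [ENNReal.toReal_one, inv_one, one_smul]
    rw [hF]
    rw [integral_finsetSum s hint1]
    apply Finset.sum_congr rfl
    intro i hi
    rw [integral_const_mul]
    congr 1
    rw [integral_indicator measurableSet_Ioc]
    rw [Measure.restrict_restrict measurableSet_Ioc]
    have : Set.Ioc (B i) (C i) ∩ Set.Ioc (0:ℝ) 1 = Set.Ioc (B i) (C i) := by
      apply Set.inter_eq_left.2
      intro z hz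
      exact ⟨lt_of_le_of_lt (hB i hi) hz.1, le_trans hz.2 (hC i hi)⟩
    rw [this]
    rw [integral_const, smul_eq_mul, mul_one, measureReal_def, Measure.restrict_apply_univ,
      Real.volume_Ioc, ENNReal.toReal_ofReal (sub_nonneg.2 (hBC i hi))]
  rw [hav] at hle
  refine ⟨t, ht.1, ht.2, le_trans (le_of_eq ?_) hle⟩
  rw [hF]
  apply Finset.sum_congr rfl
  intro i _
  congr 1
  by_cases h : B i < t ∧ t ≤ C i
  · rw [if_pos h, Set.indicator_of_mem]
    exact h
  · rw [if_neg h, Set.indicator_of_notMem]
    exact h

/-- closed neighbourhood -/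
def cl (N : V → Finset V) (U : Finset V) : Finset V := U ∪ U.biUnion N

/-- inner feasible pairs -/
def Feas1 (N : V → Finset V) (X Y : V → Finset V) : Prop :=
  (∀ a, a ∈ X a) ∧ (∀ b, b ∈ Y b) ∧ ∀ a b, b ∈ cl N (X a) → a ∈ cl N (Y b) → a = b

/-- outer feasible pairs -/
def Feas2 (N : V → Finset V) (P Q : V → Finset V) : Prop :=
  (∀ a, cl N {a} ⊆ P a) ∧ (∀ b, cl N {b} ⊆ Q b) ∧ ∀ a b, b ∈ P a → a ∈ Q b → a = b

/-- **Inner cuts are at most outer cuts.** -/
theorem inner_le_outer (N : V → Finset V) (hori : ∀ x y, y ∈ N x → x ∉ N y)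
    (w v : V → ℝ) (hw : ∀ a, 0 ≤ w a) (hv : ∀ a, 0 < v a) (P Q : V → Finset V)
    (h : Feas2 N P Q) : ∃ X Y : V → Finset V, Feas1 N X Y ∧
      ∑ a, w a * cut N v (X a) + ∑ b, v b * cut N w (Y b) ≤
        ∑ a, w a * cut N v (P a) + ∑ b, v b * cut N w (Q b) := by
  classical
  have hN : ∀ x, x ∉ N x := fun x hx => hori x x hx hx
  have hv0 : ∀ a, 0 ≤ v a := fun a => (hv a).le
  obtain ⟨hP, hQ, hPQ⟩ := h
  have hPN : ∀ a b, b ∈ N a → b ∈ P a := by
    intro a b hb
    apply hP a
    rw [cl, mem_union]
    right
    rw [mem_biUnion]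
    exact ⟨a, mem_singleton_self a, hb⟩
  have hPs : ∀ a, a ∈ P a := by
    intro a
    apply hP a
    rw [cl, mem_union]
    exact Or.inl (mem_singleton_self a)
  have hQN : ∀ a b, b ∈ N a → b ∈ Q a := by
    intro a b hb
    apply hQ a
    rw [cl, mem_union]
    right
    rw [mem_biUnion]
    exact ⟨a, mem_singleton_self a, hb⟩
  have hQs : ∀ a, a ∈ Q a := by
    intro a
    apply hQ a
    rw [cl, mem_union]
    exact Or.inl (mem_singleton_self a)
  obtain ⟨f, f0, fv, fH, fN, fcut, fsat, fmono⟩ := monotone_flows N hN v hv0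
  set G : V → Finset V := fun a => univ.filter (fun b => b = a ∨ a ∉ Q b) with hG
  have memG : ∀ a b, b ∈ G a ↔ (b = a ∨ a ∉ Q b) := by
    intro a b
    simp [hG]
  set H : V → Finset V := fun a => univ.filter (fun b => ∀ a', (a' = a ∨ a ∈ N a') → b ∈ G a')
    with hH
  have memH : ∀ a b, b ∈ H a ↔ ∀ a', (a' = a ∨ a ∈ N a') → b ∈ G a' := by
    intro a b
    simp [hH]
  have PG : ∀ a, P a ⊆ G a := by
    intro a b hb
    rw [memG]
    by_cases hab : b = a
    · exact Or.inl hab
    · right
      intro ha
      exact hab (hPQ a b hb ha).symm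
  have Gin : ∀ a b, a ∈ N b → b ∉ G a := by
    intro a b hab hb
    rw [memG] at hb
    rcases hb with rfl | hb
    · exact hN _ hab
    · exact hb (hQN b a hab)
  have Hself : ∀ a, a ∈ H a := by
    intro a
    rw [memH]
    rintro a' (rfl | ha')
    · exact PG _ (hPs _)
    · exact PG _ (hPN _ _ ha')
  have HG : ∀ a y, (y = a ∨ y ∈ N a) → H y ⊆ G a := by
    intro a y hy b hb
    rw [memH] at hb
    apply hb
    rcases hy with rfl | hy
    · exact Or.inl rfl
    · exact Or.inr hy
  have HNin : ∀ a b, a ∈ N b → b ∉ (H a).biUnion N := by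
    intro a b hab hb
    rw [mem_biUnion] at hb
    obtain ⟨x, hx, hbx⟩ := hb
    rw [memH] at hx
    exact Gin b x hbx (hx b (Or.inr hab))
  have hsub : ∀ a, ({a} : Finset V) ⊆ H a := by
    intro a
    rw [singleton_subset_iff]
    exact Hself a
  choose U hU1 hU2 hU3 hU4 using fun a => fsat {a} (H a) (hsub a)
  -- the fractional cut
  set B : V → V → ℝ := fun a x => if x ∈ H a then 1 else f {a} (H a) x / v x with hB
  have B0 : ∀ a x, 0 ≤ B a x := by
    intro a x
    simp only [hB]
    split_ifs
    · exact zero_le_one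
    · exact div_nonneg (f0 _ _ (hsub a) x) (hv0 x)
  have B1 : ∀ a x, B a x ≤ 1 := by
    intro a x
    simp only [hB]
    split_ifs
    · exact le_refl _
    · rw [div_le_one (hv x)]
      exact fv _ _ (hsub a) x
  set C : V → V → ℝ := fun a x => (insert a (N a)).sup' (insert_nonempty a (N a)) (fun y => B y x)
    with hC
  have BC : ∀ a y x, (y = a ∨ y ∈ N a) → B y x ≤ C a x := by
    intro a y x hy
    simp only [hC]
    apply Finset.le_sup' (fun y => B y x)
    rw [mem_insert]
    exact hy
  have Cex : ∀ a x, ∃ y, (y = a ∨ y ∈ N a) ∧ C a x = B y x := by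
    intro a x
    obtain ⟨y, hy, he⟩ := Finset.exists_mem_eq_sup' (insert_nonempty a (N a)) (fun y => B y x)
    refine ⟨y, ?_, he⟩
    rw [mem_insert] at hy
    exact hy
  have C1 : ∀ a x, C a x ≤ 1 := by
    intro a x
    obtain ⟨y, -, he⟩ := Cex a x
    rw [he]
    exact B1 y x
  -- pick a threshold
  obtain ⟨t, ht0, ht1, ht⟩ := threshold (univ.filter (fun q : V × V => q.1 ≠ q.2))
    (fun q => w q.1 * v q.2) (fun q => B q.1 q.2) (fun q => C q.1 q.2)
    (fun q _ => B0 _ _) (fun q _ => BC _ _ _ (Or.inl rfl)) (fun q _ => C1 _ _)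
  refine ⟨U, fun b => univ.filter (fun a => a = b ∨ C a b < t), ⟨?_, ?_, ?_⟩, ?_⟩
  · intro a
    exact hU1 a (mem_singleton_self a)
  · intro b
    simp
  · -- feasibility
    intro a b hb ha
    by_contra hab
    have hbB : B a b = 1 := by
      simp only [hB]
      by_cases hbH : b ∈ H a
      · rw [if_pos hbH]
      · rw [if_neg hbH]
        rw [cl, mem_union] at hb
        rcases hb with hb | hb
        · exact absurd (hU2 a hb) hbH
        · rw [hU4 a b hb hbH, div_self (hv b).ne']
    have hbin : a ∉ N b := by
      intro hab'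
      rw [cl, mem_union] at hb
      rcases hb with hb | hb
      · exact Gin a b hab' (HG a a (Or.inl rfl) (hU2 a hb))
      · apply HNin a b hab'
        rw [mem_biUnion] at hb ⊢
        obtain ⟨x, hx, hbx⟩ := hb
        exact ⟨x, hU2 a hx, hbx⟩
    rw [cl, mem_union] at ha
    rcases ha with ha | ha
    · rw [mem_filter] at ha
      rcases ha.2 with ha | ha
      · exact hab ha
      · have := BC a a b (Or.inl rfl)
        rw [hbB] at this
        linarith
    · rw [mem_biUnion] at ha
      obtain ⟨a', ha', haa'⟩ := ha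
      rw [mem_filter] at ha'
      rcases ha'.2 with ha' | ha'
      · exact hbin (ha' ▸ haa')
      · have := BC a' a b (Or.inr haa')
        rw [hbB] at this
        linarith
  · -- cost
    have hcY : ∀ b, cut N w (univ.filter (fun a => a = b ∨ C a b < t)) ≤
        ∑ a ∈ univ.filter (fun a => a ≠ b), w a * (if B a b < t ∧ t ≤ C a b then 1 else 0) := by
      intro b
      unfold cut
      rw [← Finset.sum_filter_add_sum_filter_not (univ.filter (fun a => a ≠ b))
        (fun a => B a b < t ∧ t ≤ C a b)]
      have e1 : ∑ a ∈ (univ.filter (fun a => a ≠ b)).filter (fun a => B a b < t ∧ t ≤ C a b),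
          w a * (if B a b < t ∧ t ≤ C a b then (1:ℝ) else 0) =
          ∑ a ∈ (univ.filter (fun a => a ≠ b)).filter (fun a => B a b < t ∧ t ≤ C a b), w a := by
        apply Finset.sum_congr rfl
        intro a ha
        rw [mem_filter] at ha
        rw [if_pos ha.2, mul_one]
      have e2 : (0:ℝ) ≤ ∑ a ∈ (univ.filter (fun a => a ≠ b)).filter
          (fun a => ¬ (B a b < t ∧ t ≤ C a b)),
          w a * (if B a b < t ∧ t ≤ C a b then (1:ℝ) else 0) := by
        apply Finset.sum_nonneg
        intro a _
        apply mul_nonneg (hw a)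
        split_ifs <;> norm_num
      rw [e1]
      refine le_trans ?_ (le_add_of_nonneg_right e2)
      apply Finset.sum_le_sum_of_subset_of_nonneg
      · intro a ha
        rw [bd, mem_sdiff, mem_biUnion] at ha
        obtain ⟨⟨a', ha', haa'⟩, hna⟩ := ha
        rw [mem_filter] at ha' hna
        have hna1 : a ≠ b := fun h => hna ⟨mem_univ _, Or.inl h⟩
        have hna2 : t ≤ C a b := by
          by_contra h
          exact hna ⟨mem_univ _, Or.inr (not_le.1 h)⟩
        rw [mem_filter, mem_filter]
        refine ⟨⟨mem_univ _, hna1⟩, ?_, hna2⟩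
        rcases ha'.2 with ha' | ha'
        · -- b → a
          have hab : a ∈ N b := ha' ▸ haa'
          have : B a b = 0 := by
            simp only [hB]
            rw [if_neg (fun h => Gin a b hab (HG a a (Or.inl rfl) h)),
              fN _ _ (hsub a) b (HNin a b hab), zero_div]
          rw [this]
          exact ht0
        · exact lt_of_le_of_lt (BC a' a b (Or.inr haa')) ha'
      · intro a _ _
        exact hw a
    have hsumY : ∑ b, v b * cut N w (univ.filter (fun a => a = b ∨ C a b < t)) ≤
        ∑ q ∈ univ.filter (fun q : V × V => q.1 ≠ q.2), (w q.1 * v q.2) *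
          (if B q.1 q.2 < t ∧ t ≤ C q.1 q.2 then 1 else 0) := by
      rw [Finset.sum_filter, Fintype.sum_prod_type_right]
      apply Finset.sum_le_sum
      intro b _
      refine le_trans (mul_le_mul_of_nonneg_left (hcY b) (hv0 b)) (le_of_eq ?_)
      rw [Finset.mul_sum, Finset.sum_filter]
      apply Finset.sum_congr rfl
      intro a _
      by_cases hab : a = b
      · simp [hab]
      · simp only [ne_eq, hab, not_false_iff, if_true]
        ring
    -- row inequality
    have hrow : ∀ a, cut N v (U a) + ∑ b ∈ univ.filter (fun b => a ≠ b), v b * (C a b - B a b) ≤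
        cut N v (P a) + ∑ b, (if b ∈ G a ∧ b ∉ H a then v b else 0) := by
      intro a
      have hRa : cl N {a} ⊆ G a := (hP a).trans (PG a)
      have hRH : ∀ y, (y = a ∨ y ∈ N a) → ({y} : Finset V) ⊆ cl N {a} := by
        intro y hy
        rw [singleton_subset_iff, cl, mem_union]
        rcases hy with rfl | hy
        · exact Or.inl (mem_singleton_self _)
        · right
          rw [mem_biUnion]
          exact ⟨a, mem_singleton_self a, hy⟩
      have hF1 : ∑ x, f (cl N {a}) (G a) x ≤ cut N v (P a) := fcut _ _ _ (hP a) (PG a)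
      have hpt : ∀ b, (if a ≠ b then v b * (C a b - B a b) else 0) ≤
          (if b ∈ G a ∧ b ∉ H a then v b else 0) + f (cl N {a}) (G a) b - f {a} (H a) b := by
        intro b
        by_cases hab : a = b
        · subst hab
          have h1 : a ∈ H a := Hself a
          have h2 : a ∈ G a := HG a a (Or.inl rfl) h1
          rw [fH _ _ (hsub a) a h1, fH _ _ hRa a h2]
          simp [h1]
        · rw [if_pos hab]
          by_cases hbH : b ∈ H a
          · have hbG : b ∈ G a := HG a a (Or.inl rfl) hbH
            rw [fH _ _ (hsub a) b hbH, fH _ _ hRa b hbG]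
            have hB1 : B a b = 1 := by simp only [hB]; rw [if_pos hbH]
            rw [hB1]
            have := C1 a b
            have := hv b
            simp only [hbH, not_true, and_false, if_false]
            nlinarith
          · have hBf : v b * B a b = f {a} (H a) b := by
              simp only [hB]
              rw [if_neg hbH, mul_div_assoc', mul_div_cancel_left₀ _ (hv b).ne']
            by_cases hbG : b ∈ G a
            · rw [fH _ _ hRa b hbG, if_pos ⟨hbG, hbH⟩, mul_sub, hBf]
              have := C1 a b
              have := hv b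
              nlinarith
            · rw [if_neg (fun h => hbG h.1), mul_sub, hBf]
              obtain ⟨y, hy, he⟩ := Cex a b
              have hyH : b ∉ H y := fun h => hbG (HG a y hy h)
              have hCf : v b * C a b = f {y} (H y) b := by
                rw [he]
                simp only [hB]
                rw [if_neg hyH, mul_div_assoc', mul_div_cancel_left₀ _ (hv b).ne']
              have hm := fmono {y} (H y) (cl N {a}) (G a) (hRH y hy) (HG a y hy) (hsub y) hRa b hbG
              rw [hCf]
              linarith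
      have hs := Finset.sum_le_sum (fun b (_ : b ∈ (univ : Finset V)) => hpt b)
      rw [← Finset.sum_filter, Finset.sum_sub_distrib, Finset.sum_add_distrib] at hs
      have hU3' := hU3 a
      linarith
    have hQcost : ∑ a, w a * ∑ b, (if b ∈ G a ∧ b ∉ H a then v b else 0) ≤
        ∑ b, v b * cut N w (Q b) := by
      have : ∑ a, w a * ∑ b, (if b ∈ G a ∧ b ∉ H a then v b else 0) =
          ∑ b, v b * ∑ a, (if b ∈ G a ∧ b ∉ H a then w a else 0) := by
        simp only [Finset.mul_sum]
        rw [Finset.sum_comm]
        apply Finset.sum_congr rfl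
        intro b _
        apply Finset.sum_congr rfl
        intro a _
        split_ifs <;> ring
      rw [this]
      apply Finset.sum_le_sum
      intro b _
      apply mul_le_mul_of_nonneg_left _ (hv0 b)
      unfold cut
      rw [← Finset.sum_filter]
      apply Finset.sum_le_sum_of_subset_of_nonneg
      · intro a ha
        rw [mem_filter] at ha
        obtain ⟨-, h1, h2⟩ := ha
        rw [memH] at h2
        push Not at h2
        obtain ⟨a', ha', hb'⟩ := h2
        have hba : b ≠ a := by
          rintro rfl
          have := Hself b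
          rw [memH] at this
          exact hb' (this a' ha')
        rw [memG] at h1
        have haQ : a ∉ Q b := by
          rcases h1 with h1 | h1
          · exact absurd h1 hba
          · exact h1
        have ha'Q : a' ∈ Q b := by
          rw [memG] at hb'
          push Not at hb'
          exact hb'.2
        rw [bd, mem_sdiff, mem_biUnion]
        refine ⟨⟨a', ha'Q, ?_⟩, haQ⟩
        rcases ha' with rfl | ha'
        · exact absurd ha'Q haQ
        · exact ha'
      · intro a _ _
        exact hw a
    have hmain : ∑ a, w a * (cut N v (U a) +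
        ∑ b ∈ univ.filter (fun b => a ≠ b), v b * (C a b - B a b)) ≤
        ∑ a, w a * (cut N v (P a) + ∑ b, (if b ∈ G a ∧ b ∉ H a then v b else 0)) := by
      apply Finset.sum_le_sum
      intro a _
      exact mul_le_mul_of_nonneg_left (hrow a) (hw a)
    simp only [mul_add, Finset.sum_add_distrib] at hmain
    have hq : ∑ q ∈ univ.filter (fun q : V × V => q.1 ≠ q.2), (w q.1 * v q.2) *
          (C q.1 q.2 - B q.1 q.2) =
        ∑ a, w a * ∑ b ∈ univ.filter (fun b => a ≠ b), v b * (C a b - B a b) := by
      rw [Finset.sum_filter, Fintype.sum_prod_type]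
      apply Finset.sum_congr rfl
      intro a _
      rw [Finset.mul_sum, Finset.sum_filter]
      apply Finset.sum_congr rfl
      intro b _
      split_ifs
      · ring
      · rfl
    linarith

end Vale.Agent.P038.H350
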